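import Vale.Agent.P038.H391.MF
import Vale.Agent.P038.H71.Plan

/-!
# Seymour's second neighbourhood conjecture: the closing step

No normal form with `lam = 1` exists: the strict inequality (G) of `H71.plan_lt` contradicts
`H391.no_strict`.
-/

namespace Vale.Agent.P038.H226

open Finset Vale.Agent.P038 Vale.Agent.P038.H139 Vale.Agent.P038.H71

universe u

theorem no_nfmin {V : Type u} [Fintype V] [Nonempty V] (D : OGraph V) (w : V → ℝ)
    (h : NFmin 1 D w) : False := by
  classical
  let N : V → Finset V := fun a => insert a (N1 D a)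
  have hmem : ∀ a b, b ∈ N a ↔ b = a ∨ D.arc a b := by
    intro a b
    simp only [N, Finset.mem_insert, mem_N1]
  have hcl : ∀ X : Finset V, H391.nb N X = cl D X := by
    intro X
    ext y
    rw [H391.mem_nb, mem_cl]
    constructor
    · rintro ⟨x, hx, hy⟩
      rcases (hmem x y).1 hy with rfl | h1
      · exact Or.inl hx
      · exact Or.inr ⟨x, hx, h1⟩
    · rintro (hy | ⟨x, hx, h1⟩)
      · exact ⟨y, hy, (hmem y y).2 (Or.inl rfl)⟩
      · exact ⟨x, hx, (hmem x y).2 (Or.inr h1)⟩
  refine H391.no_strict N (fun a => (hmem a a).2 (Or.inl rfl)) ?_ w h.pos ?_ ?_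
  · intro a b hb ha
    rcases (hmem a b).1 hb with h1 | h1
    · exact h1.symm
    · rcases (hmem b a).1 ha with h2 | h2
      · exact h2
      · exact absurd h2 (D.asymm _ _ h1)
  · intro a
    have h1 := h.one a
    have h2 : 0 ≤ W w (N2 D a) := W_nonneg h.toNF.nonneg _
    unfold Fw at h1
    have h3 : 0 < W w (N1 D a) := by linarith
    have h4 : (N1 D a).Nonempty := by
      rw [Finset.nonempty_iff_ne_empty]
      intro h5
      rw [h5] at h3
      simp [W] at h3
    obtain ⟨b, hb⟩ := h4
    rw [mem_N1] at hb
    refine ⟨b, (hmem a b).2 (Or.inr hb), ?_⟩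
    rintro rfl
    exact D.loopless _ hb
  · intro X hX
    rw [hcl] at hX ⊢
    set L := Lx D X with hL
    have hL' : L = outS D X \ X := hL
    have hclX : cl D X = X ∪ L := by
      ext z
      rw [mem_cl, Finset.mem_union, hL', Finset.mem_sdiff, mem_outS]
      tauto
    have hdisj : Disjoint X L := by
      rw [hL']
      exact Finset.disjoint_sdiff
    have hLne : L.Nonempty := by
      rw [Finset.nonempty_iff_ne_empty]
      intro h1
      rw [h1, Finset.union_empty] at hclX
      exact hX hclX
    have hclcl : cl D (cl D X) = X ∪ (cl D L \ X) := by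
      rw [hclX]
      ext z
      constructor
      · intro hz
        by_cases hzX : z ∈ X
        · exact Finset.mem_union_left _ hzX
        · refine Finset.mem_union_right _ (Finset.mem_sdiff.2 ⟨?_, hzX⟩)
          rcases mem_cl.1 hz with hz | ⟨y, hy, hyz⟩
          · rcases Finset.mem_union.1 hz with hz | hz
            · exact absurd hz hzX
            · exact mem_cl.2 (Or.inl hz)
          · rcases Finset.mem_union.1 hy with hy | hy
            · refine mem_cl.2 (Or.inl ?_)
              rw [hL']
              exact Finset.mem_sdiff.2 ⟨mem_outS.2 ⟨y, hy, hyz⟩, hzX⟩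
            · exact mem_cl.2 (Or.inr ⟨y, hy, hyz⟩)
      · intro hz
        rcases Finset.mem_union.1 hz with hz | hz
        · exact mem_cl.2 (Or.inl (Finset.mem_union_left _ hz))
        · rcases mem_cl.1 (Finset.mem_sdiff.1 hz).1 with hz | ⟨y, hy, hyz⟩
          · exact mem_cl.2 (Or.inl (Finset.mem_union_right _ hz))
          · exact mem_cl.2 (Or.inr ⟨y, Finset.mem_union_right _ hy, hyz⟩)
    have hplan := plan_lt h X ∅ (by
      rw [← hL]
      exact Finset.empty_ssubset.2 hLne)
    rw [← hL] at hplan
    unfold dd at hplan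
    have he : cl D (∅ : Finset V) = ∅ := by
      ext z
      rw [mem_cl]
      simp
    rw [he] at hplan
    have hW0 : W w (∅ : Finset V) = 0 := by simp [W]
    rw [Finset.empty_sdiff, hW0] at hplan
    have e1 : W w (cl D (cl D X)) = W w X + W w (cl D L \ X) := by
      rw [hclcl]
      exact W_union Finset.disjoint_sdiff
    have e2 : W w (cl D X) = W w X + W w L := by
      rw [hclX]
      exact W_union hdisj
    have e3 : ∀ S : Finset V, H391.hh N w S = W w (cl D S) - W w S := by
      intro S
      unfold H391.hh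
      rw [hcl]
      rfl
    rw [e3, e3, e1, e2]
    linarith

theorem no_nf {V : Type u} [Fintype V] [Nonempty V] (D : OGraph V) (w : V → ℝ) :
    ¬ NF 1 D w := by
  intro h
  obtain ⟨D', w', h'⟩ := exists_nfmin h
  exact no_nfmin D' w' h'

/-- Seymour's second neighbourhood conjecture with vertex weights. -/
theorem snc {V : Type u} [Fintype V] [Nonempty V] (D : OGraph V) (w : V → ℝ)
    (hw : ∀ v, 0 ≤ w v) : ∃ v, ∑ u ∈ N1 D v, w u ≤ ∑ u ∈ N2 D v, w u := by
  obtain ⟨v, hv⟩ := snc_of_noNF (lam := 1) zero_le_one (fun V _ _ D w => no_nf D w) D w hw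
  exact ⟨v, by simpa using hv⟩

/-- Seymour's second neighbourhood conjecture. -/
theorem snc_card {V : Type u} [Fintype V] [Nonempty V] (D : OGraph V) :
    ∃ v, (N1 D v).card ≤ (N2 D v).card := by
  obtain ⟨v, hv⟩ := snc D (fun _ => (1 : ℝ)) (fun _ => zero_le_one)
  refine ⟨v, ?_⟩
  simp only [Finset.sum_const, nsmul_eq_mul, mul_one] at hv
  exact_mod_cast hv

end Vale.Agent.P038.H226
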